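import Vale.Agent.P011UC.Defs2
import Vale.Agent.P011UC.Tden
import Vale.Agent.P011UH.Cl
import Vale.Agent.P011UB.Main

/-!
Density of the rational points from the stable apartments in general position.
-/

set_option autoImplicit false
set_option linter.all false

namespace Vale.Agent.P011UHN

open Matrix Vale.Agent.P183CH.Chev Vale.Agent.P011U Vale.Agent.P011UC
open Vale.Agent.P183CH hiding ev
open Vale.Agent.P011LD (Op)

section

variable {D : Chev} {K : Type} [Field K]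

variable (D K) in
/-- the polynomial functions on the group -/
def PF : Subring (D.grp K → K) where
  carrier := {F | ∃ f, ∀ g, ev g f = F g}
  one_mem' := ⟨1, fun _ => map_one _⟩
  zero_mem' := ⟨0, fun _ => map_zero _⟩
  mul_mem' := fun ⟨p, e⟩ ⟨q, e'⟩ => ⟨p * q, fun g => (map_mul _ p q).trans (by
    rw [Pi.mul_apply, ← e, ← e'])⟩
  add_mem' := fun ⟨p, e⟩ ⟨q, e'⟩ => ⟨p + q, fun g => (map_add _ p q).trans (by
    rw [Pi.add_apply, ← e, ← e'])⟩
  neg_mem' := fun ⟨p, e⟩ => ⟨-p, fun g => (map_neg _ p).trans (by rw [Pi.neg_apply, ← e])⟩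

theorem mem_PF {F : D.grp K → K} : F ∈ PF D K ↔ ∃ f, ∀ g, ev g f = F g := Iff.rfl

theorem PF_const (c : K) : (fun _ => c) ∈ PF D K := ⟨MvPolynomial.C c, fun _ => MvPolynomial.eval_C c⟩

/-- polynomial maps -/
def PM (φ : D.grp K → D.grp K) : Prop := ∀ i j, (fun g => (φ g).1.1 i j) ∈ PF D K

theorem PM.sub {φ : D.grp K → D.grp K} (h : PM φ) (f : MvPolynomial (Fin D.n × Fin D.n) K) :
    ∃ f', ∀ g, ev g f' = ev (φ g) f := by
  change (fun g => ev (φ g) f) ∈ PF D K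
  induction f using MvPolynomial.induction_on with
  | C c => simpa only [ev, MvPolynomial.eval_C] using PF_const c
  | add p q hp hq => simpa only [ev, map_add, Pi.add_def] using add_mem hp hq
  | mul_X p e hp =>
    simpa only [ev, map_mul, MvPolynomial.eval_X, Pi.mul_def] using mul_mem hp (h e.1 e.2)

theorem PM.id : PM fun g : D.grp K => g := fun i j =>
  mem_PF.2 ⟨MvPolynomial.X (i, j), fun g => MvPolynomial.eval_X _⟩

theorem PM.const (y : D.grp K) : PM fun _ => y := fun i j => PF_const (y.1.1 i j)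

theorem PM.mul {φ ψ : D.grp K → D.grp K} (h : PM φ) (h' : PM ψ) : PM fun g => φ g * ψ g :=
  fun i j => by
    have := sum_mem (S := PF D K) (t := Finset.univ) fun l _ => mul_mem (h i l) (h' l j)
    rwa [show (∑ l, (fun g => (φ g).1.1 i l) * fun g => (ψ g).1.1 l j) =
      fun g => (φ g * ψ g).1.1 i j from funext fun g => by simp [mul_apply]] at this

theorem PM.inv : PM fun g : D.grp K => g⁻¹ := fun i j =>
  mem_PF.2 ⟨adjugate (Matrix.of fun a b => MvPolynomial.X (a, b)) i j, fun g => by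
    have := congrFun (congrFun ((MvPolynomial.eval fun e => g.1.1 e.1 e.2).map_adjugate
      (Matrix.of fun a b => MvPolynomial.X (a, b))) i) j
    refine this.trans ?_
    rw [Subgroup.coe_inv, Matrix.coe_units_inv, inv_def, P011UH.det_grp, Ring.inverse_one, one_smul]
    congr 1
    ext a b
    simp⟩

/-- the Zariski closure of a subgroup -/
def Zc (S : Subgroup (D.grp K)) : Subgroup (D.grp K) where
  carrier := {g | ∀ f, (∀ h ∈ S, ev h f = 0) → ev g f = 0}
  one_mem' f h := h 1 (one_mem S)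
  mul_mem' {a b} ha hb f h := by
    obtain ⟨f', e⟩ := (PM.id.mul (PM.const b)).sub f
    refine (e a).symm.trans (ha f' fun s m => (e s).trans ?_)
    obtain ⟨f'', e'⟩ := ((PM.const s).mul PM.id).sub f
    exact (e' b).symm.trans (hb f'' fun s' m' => (e' s').trans (h _ (mul_mem m m')))
  inv_mem' {a} ha f h := by
    obtain ⟨f', e⟩ := PM.inv.sub f
    exact (e a).symm.trans (ha f' fun s m => (e s).trans (h _ (inv_mem m)))

theorem exists_chi [Infinite K] {γ : D.Q} (h : γ ∈ D.R.Φ) :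
    ∃ (i : Fin D.R.r) (c : Kˣ), ((c ^ D.R.pr γ i : Kˣ) : K) ≠ 1 := by
  classical
  obtain ⟨i, hi⟩ : ∃ i, D.R.pr γ i ≠ 0 := by
    by_contra n
    push Not at n
    exact ((R_ok D).sign γ h).1 (pr_inj ((funext n).trans (zero_vecMul D.A).symm))
  obtain ⟨c, hc⟩ := Infinite.exists_notMem_finset
    (insert 0 (Polynomial.nthRoots (D.R.pr γ i).natAbs (1 : K)).toFinset)
  simp only [Finset.mem_insert, Multiset.mem_toFinset, not_or,
    Polynomial.mem_nthRoots (Int.natAbs_pos.2 hi)] at hc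
  refine ⟨i, Units.mk0 c hc.1, fun e => hc.2 ?_⟩
  exact congrArg Units.val ((pow_natAbs_eq_one (a := Units.mk0 c hc.1)).2 (Units.ext e))

variable {k : Type} [Field k] [Algebra k K] {P : Subgroup (K ≃ₐ[k] K)}
  {a : (K ≃ₐ[k] K) → MulAut (D.grp K)} {π : (K ≃ₐ[k] K) → Equiv.Perm (Fin D.R.r)}

theorem mem_Fix {g : D.grp K} : g ∈ Fix P a ↔ ∀ σ ∈ P, a σ g = g := by
  simp only [Fix, Subgroup.mem_iInf]
  rfl

theorem tw_ap (u : D.grp K) (σ : K ≃ₐ[k] K) (g : D.grp K) :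
    tw a (MulAut.conj u) σ g = u⁻¹ * a σ (u * g * u⁻¹) * u := by simp [tw]

theorem act_tw (h : Act (GG D K) P a π) (u : D.grp K) {S : Subgroup (D.grp K)}
    (v : Via (GG D K) P (tw a (MulAut.conj u)) π S) :
    Act (GG D K) P (tw a (MulAut.conj u)) π := by
  refine ⟨fun σ s τ t => by simp only [tw, h.mul σ s τ t]; group,
    (h.cont.and (Op.mat P u.1.1)).imp fun σ _ e γ m t => ?_,
    fun σ s => (v σ s).imp fun _ x => ⟨trivial, x.2⟩⟩
  have : ⊤ ≤ (a σ).toMonoidHom.eqLocus (fm D (σ : K →+* K)) := by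
    rw [← (GG_ok (D := D) (k := K)).gen, Subgroup.closure_le]
    rintro _ ⟨i, t, rfl | rfl⟩
    · exact (e.1 _ ((R_ok D).simple i) t).trans (fm_x (σ : K →+* K) _ t).symm
    · exact (e.1 _ ((R_ok D).neg_mem ((R_ok D).simple i)) t).trans (fm_x (σ : K →+* K) _ t).symm
  have e2 : a σ u = u := (this (Subgroup.mem_top u)).trans (Subtype.ext (Units.ext e.2))
  rw [tw_ap, map_mul, map_mul, map_inv, e2, e.1 γ m t]
  group

end

theorem denj (h : APT0) : DENJ := by
  intro D k K _ _ _ _ _ _ P a π J o hA hP hS hV hD f ⟨g, hg, hf⟩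
  haveI := Infinite.of_injective _ (algebraMap k K).injective
  have key : ∀ y, Gn J y → ∀ t ∈ (GG D K).T, y⁻¹ * t * y ∈ Zc ((GG D K).GJ J ⊓ Fix P a) := by
    intro y hy t ht f e
    by_contra n
    obtain ⟨f', e'⟩ := ((PM.inv.mul (PM.const t)).mul PM.id).sub f
    obtain ⟨u, u1, u2, u3⟩ := h D k K P a π J o hA hP hS hV hD f' ⟨y, hy, e' y ▸ n⟩
    obtain ⟨f'', e''⟩ := (((PM.const u⁻¹).mul PM.id).mul (PM.const u)).sub f
    obtain ⟨s, s1, s2, s3⟩ := tden D k K P _ π o (act_tw hA _ u3)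
      (fun σ m => (u3 σ m).imp fun _ x => ⟨RG.NJ_le_N J x.1, x.2⟩) f'' ⟨t, ht, e'' t ▸ e' u ▸ u2⟩
    refine s3 ((e'' s).trans (e _ (Subgroup.mem_inf.2 ⟨mul_mem (mul_mem (inv_mem u1)
      (Subgroup.mem_sup_right s1)) u1, mem_Fix.2 fun σ m => ?_⟩)))
    have := mem_Fix.1 s2 σ m
    rw [tw_ap, inv_inv] at this
    conv_rhs => rw [← this]
    group
  have hT : (GG D K).T ≤ Zc ((GG D K).GJ J ⊓ Fix P a) := fun t ht => by
    simpa using key 1 (.inl rfl) t ht
  have : (GG D K).GJ J ≤ Zc ((GG D K).GJ J ⊓ Fix P a) := by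
    refine sup_le (RG.X_le fun γ m1 m2 s => ?_) hT
    obtain ⟨i, c, hc⟩ := exists_chi (K := K) m2
    have := mul_mem (key _ (.inr ⟨γ, m2, m1, s / ((c ^ D.R.pr γ i : Kˣ) - 1), rfl⟩) _
      (RG.h_mem i c)) (inv_mem (hT (RG.h_mem i c)))
    rwa [mul_assoc, mul_assoc, ← mul_assoc ((GG D K).h i c), o.hx i c γ m2, ← o.x_neg m2,
      ← o.add γ m2, neg_add_eq_sub, ← sub_one_mul, mul_div_cancel₀ _ (sub_ne_zero.2 hc)] at this
  by_contra n
  exact hf (this hg f fun s m => by_contra fun c => n ⟨s, m.1, m.2, c⟩)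

theorem aptj (h : APT0) : APTJ := by
  intro D k K _ _ _ _ _ _ P a π J o hA hP hS hV hD f ⟨g, hg, hf⟩
  obtain ⟨u, u1, -, u3⟩ := h D k K P a π J o hA hP hS hV hD 1 ⟨1, .inl rfl, by simp⟩
  obtain ⟨f', e⟩ := (PM.id.mul (PM.const u⁻¹)).sub f
  obtain ⟨s, s1, s2, s3⟩ := denj h D k K P a π J o hA hP hS hV hD f'
    ⟨g * u, mul_mem hg u1, by rwa [e, mul_inv_cancel_right]⟩
  refine ⟨s * u⁻¹, mul_mem s1 (inv_mem u1), e s ▸ s3, fun σ m => ?_⟩
  have : tw a (MulAut.conj (s * u⁻¹)) σ = tw a (MulAut.conj u⁻¹) σ := MulEquiv.ext fun y => by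
    rw [tw_ap, tw_ap]
    simp only [map_mul, map_inv, mem_Fix.1 s2 σ m]
    group
  rw [this]
  exact u3 σ m

theorem den (h : APT0) : P011U.DEN := by
  intro k K _ _ _ _ _ D hD T p hp g
  haveI := Infinite.of_injective _ (algebraMap k K).injective
  haveI : IsSepClosed K := IsSepClosure.sep_closed k
  obtain ⟨y, c, π, h1, -⟩ := nf_of P011UB.aut hD T
  obtain ⟨a1, a2⟩ := act_of T h1 ⊤
  have e := (GG_ok (D := D) (k := K)).GJ_univ (R_ok D)
  by_contra n
  obtain ⟨s, -, s2, s3⟩ := denj h D k K ⊤ T.a π Set.univ GG_ok a1 a2 (fun _ _ _ => Iff.rfl)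
    (e ▸ a1.std) hD p ⟨g, e ▸ trivial, n⟩
  exact s3 (hp s fun σ => mem_Fix.1 s2 σ trivial)

end Vale.Agent.P011UHN
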