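import Vale.Agent.P011UHB.Defs
import Vale.Agent.P183CH2.Len

/-!
The extended Weyl group and its real reflection representation.
-/

set_option autoImplicit false
set_option linter.all false

namespace Vale.Agent.P011UHN

open Matrix Vale.Agent.P183CH Vale.Agent.P011U Vale.Agent.P011UHB
open Vale.Agent.P011UC (pa)
open Vale.Agent.P183CH.RS

variable {R : RS} {π π' : Equiv.Perm (Fin R.r)} {w w' a : R.Aut} {γ δ : R.Q} {i j : Fin R.r}
  {x y z : Fin R.r → ℝ}

/-! ### Diagram automorphisms -/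

theorem pa_ap (π : Equiv.Perm (Fin R.r)) (γ : R.Q) (i : Fin R.r) :
    pa R π γ i = γ (π.symm i) := rfl

theorem pa_α (π : Equiv.Perm (Fin R.r)) (i : Fin R.r) : pa R π (R.α i) = R.α (π i) := by
  ext j
  simp only [pa_ap, α_apply, Equiv.symm_apply_eq]

theorem pa_one : pa R 1 = 1 := rfl

theorem pa_mul (π π' : Equiv.Perm (Fin R.r)) : pa R (π * π') = pa R π * pa R π' := rfl

theorem pa_inv (π : Equiv.Perm (Fin R.r)) : pa R π⁻¹ = (pa R π)⁻¹ :=
  eq_inv_of_mul_eq_one_left (by rw [← pa_mul, inv_mul_cancel, pa_one])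

theorem pa_nonneg : 0 ≤ pa R π γ ↔ 0 ≤ γ :=
  ⟨fun h i => by simpa [pa_ap] using h (π i), fun h i => h _⟩

theorem pa_nonpos : pa R π γ ≤ 0 ↔ γ ≤ 0 :=
  ⟨fun h i => by simpa [pa_ap] using h (π i), fun h i => h _⟩

theorem pa_dot (π : Equiv.Perm (Fin R.r)) (γ δ : R.Q) : pa R π γ ⬝ᵥ pa R π δ = γ ⬝ᵥ δ :=
  Equiv.sum_comp π.symm fun i => γ i * δ i

theorem dg_one : Dg R 1 := fun _ _ => rfl

theorem dg_inv (h : Dg R π) : Dg R π⁻¹ := fun i j => by simpa using (h (π⁻¹ i) (π⁻¹ j)).symm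

theorem dg_mul (h : Dg R π) (h' : Dg R π') : Dg R (π * π') := fun i j => (h _ _).trans (h' i j)

theorem pa_pr (h : Dg R π) (γ : R.Q) (j : Fin R.r) : R.pr (pa R π γ) (π j) = R.pr γ j := by
  rw [pr_eq, pr_eq, ← Equiv.sum_comp π]
  simp only [pa_ap, Equiv.symm_apply_apply, h _ _]

theorem ext_W (h : a ∈ R.W) : Ext R a := ⟨a, h, 1, dg_one, (mul_one a).symm⟩

theorem ext_pa (h : Dg R π) : Ext R (pa R π) := ⟨1, one_mem _, π, h, (one_mul _).symm⟩

section

variable (hR : R.Ok)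
include hR

theorem pa_sE (h : Dg R π) (i : Fin R.r) : pa R π * R.sE i = R.sE (π i) * pa R π :=
  LinearEquiv.ext fun γ => by
    rw [mul_app, mul_app, hR.sE_eq, hR.sE_eq, map_sub, map_smul, pa_α, pa_pr h]

theorem pa_conj (h : Dg R π) (ha : a ∈ R.W) : pa R π * a * (pa R π)⁻¹ ∈ R.W := by
  obtain ⟨l, -, rfl⟩ := hR.exists_wd ha
  clear ha
  induction l with
  | nil => simpa [wd_nil] using one_mem _
  | cons i l ih =>
    rw [wd_cons, ← mul_assoc, pa_sE hR h, mul_assoc, mul_assoc, ← mul_assoc (pa R π)]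
    exact mul_mem (sE_mem_W _) ih

theorem pa_mem (h : Dg R π) (hγ : γ ∈ R.Φ) : pa R π γ ∈ R.Φ := by
  obtain ⟨a, ha, i, rfl⟩ := hR.exists_conj hγ
  have := hR.map_mem (pa_conj hR h ha) (hR.simple (π i))
  rwa [← pa_α, mul_app, inv_app] at this

theorem B_pa (h : Dg R π) (γ δ : R.Q) : R.B (pa R π γ) (pa R π δ) = R.B γ δ := by
  have := hR.finite_W
  have := Fintype.ofFinite R.W
  rw [hR.B_eq, hR.B_eq]
  have inj : Function.Injective fun a : R.W =>
      (⟨pa R π * a * (pa R π)⁻¹, pa_conj hR h a.2⟩ : R.W) := fun a b e =>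
    Subtype.ext (mul_left_cancel (mul_right_cancel (congrArg Subtype.val e)))
  refine (Fintype.sum_bijective _ (Finite.injective_iff_bijective.1 inj) _ _ fun a => ?_).symm
  simp only [mul_app, inv_app, pa_dot]

theorem len_pa (h : Dg R π) (a : R.Aut) : R.len (a * pa R π) = R.len a :=
  Set.ncard_congr (fun γ _ => pa R π γ) (fun γ e => ⟨pa_mem hR h e.1, pa_nonneg.2 e.2.1, e.2.2⟩)
    (fun _ _ _ _ e => (pa R π).injective e) fun β e => ⟨pa R π⁻¹ β, ⟨pa_mem hR (dg_inv h) e.1,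
      pa_nonneg.2 e.2.1, by rw [mul_app, pa_inv, app_inv]; exact e.2.2⟩, by rw [pa_inv, app_inv]⟩

/-! ### The extended Weyl group -/

theorem ext_mul (h : Ext R w) (h' : Ext R w') : Ext R (w * w') := by
  obtain ⟨a, ha, π, h, rfl⟩ := h
  obtain ⟨a', ha', π', h', rfl⟩ := h'
  exact ⟨_, mul_mem ha (pa_conj hR h ha'), _, dg_mul h h', by rw [pa_mul]; group⟩

theorem ext_inv (h : Ext R w) : Ext R w⁻¹ := by
  obtain ⟨a, ha, π, h, rfl⟩ := h
  rw [_root_.mul_inv_rev, ← pa_inv]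
  exact ext_mul hR (ext_pa (dg_inv h)) (ext_W (inv_mem ha))

theorem ext_mem (h : Ext R w) (hγ : γ ∈ R.Φ) : w γ ∈ R.Φ := by
  obtain ⟨a, ha, π, h, rfl⟩ := h
  exact hR.map_mem (w := a) ha (pa_mem hR h hγ)

theorem ext_B (h : Ext R w) (γ δ : R.Q) : R.B (w γ) (w δ) = R.B γ δ := by
  obtain ⟨a, ha, π, h, rfl⟩ := h
  rw [mul_app, mul_app, hR.B_inv ha, B_pa hR h]

theorem ext_conj (h : Ext R w) (ha : a ∈ R.W) : w * a * w⁻¹ ∈ R.W := by
  obtain ⟨b, hb, π, h, rfl⟩ := h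
  have := mul_mem (mul_mem hb (pa_conj hR h ha)) (inv_mem hb)
  rwa [show b * (pa R π * a * (pa R π)⁻¹) * b⁻¹ = b * pa R π * a * (b * pa R π)⁻¹ by group] at this

theorem ext_sign (h : Ext R w) (hγ : γ ∈ R.Φ) : 0 ≤ w γ ∨ w γ ≤ 0 := (hR.sign _ (ext_mem hR h hγ)).2

theorem ext_len_pos (h : Ext R w) (e : 0 ≤ w (R.α i)) : R.len (w * R.sE i) = R.len w + 1 := by
  obtain ⟨a, ha, π, h, rfl⟩ := h
  rw [mul_app, pa_α] at e
  rw [mul_assoc, pa_sE hR h, ← mul_assoc, len_pa hR h, len_pa hR h, hR.len_mul_pos ha e]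

theorem ext_len_neg (h : Ext R w) (e : w (R.α i) ≤ 0) : R.len (w * R.sE i) + 1 = R.len w := by
  obtain ⟨a, ha, π, h, rfl⟩ := h
  rw [mul_app, pa_α] at e
  rw [mul_assoc, pa_sE hR h, ← mul_assoc, len_pa hR h, len_pa hR h, hR.len_mul_neg ha e]

theorem ext_len_inv (h : Ext R w) : R.len w⁻¹ = R.len w := by
  obtain ⟨a, ha, π, h, rfl⟩ := h
  have h' := dg_inv h
  have b := pa_conj hR h' (inv_mem ha)
  have e : (a * pa R π)⁻¹ = pa R π⁻¹ * a⁻¹ * (pa R π⁻¹)⁻¹ * pa R π⁻¹ := by rw [pa_inv]; group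
  rw [e, len_pa hR h', len_pa hR h, ← hR.len_inv b, ← len_pa hR h' _, ← len_pa hR h' a]
  have e2 : (pa R π⁻¹ * a⁻¹ * (pa R π⁻¹)⁻¹)⁻¹ * pa R π⁻¹ = pa R π⁻¹ * a := by group
  rw [e2, len_pa hR h' a]
  exact congrArg Set.ncard (Set.ext fun γ => and_congr_right fun _ => and_congr_right fun _ =>
    pa_nonpos)

theorem ext_len_le (h : Ext R w) (i : Fin R.r) : R.len (w * R.sE i) ≤ R.len w + 1 := by
  rcases ext_sign hR h (hR.simple i) with e | e
  · exact (ext_len_pos hR h e).le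
  · have := ext_len_neg hR h e
    omega

theorem ext_len_left (h : Ext R w) (i : Fin R.r) : R.len (R.sE i * w) = R.len (w⁻¹ * R.sE i) := by
  rw [← ext_len_inv hR (ext_mul hR (ext_W (sE_mem_W i)) h), _root_.mul_inv_rev, hR.sE_inv]

/-- a cyclic shift does not raise the length if `w` or `w⁻¹` makes the simple root negative -/
theorem shift_le (h : Ext R w) (e : w (R.α i) ≤ 0 ∨ w⁻¹ (R.α i) ≤ 0) :
    R.len (R.sE i * w * R.sE i) ≤ R.len w := by
  have s := ext_W (R := R) (sE_mem_W i)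
  rcases e with e | e
  · have h1 := ext_len_neg hR h e
    have h2 := ext_len_le hR (ext_inv hR (ext_mul hR h s)) i
    rw [← ext_len_left hR (ext_mul hR h s), ext_len_inv hR (ext_mul hR h s), ← mul_assoc] at h2
    omega
  · have h1 := ext_len_neg hR (ext_inv hR h) e
    have h2 := ext_len_le hR (ext_mul hR s h) i
    rw [← ext_len_left hR h, ext_len_inv hR h] at h1
    omega

end

/-! ### The real vector space -/

/-- the action as a linear map -/
noncomputable def acL (w : R.Aut) : (Fin R.r → ℝ) →ₗ[ℝ] (Fin R.r → ℝ) where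
  toFun := ac R w
  map_add' x y := by simp [ac, add_smul, Finset.sum_add_distrib]
  map_smul' t x := by simp [ac, Finset.smul_sum, smul_smul]

theorem acL_ap (w : R.Aut) (x : Fin R.r → ℝ) : acL w x = ac R w x := rfl

theorem ac_add (w : R.Aut) (x y : Fin R.r → ℝ) : ac R w (x + y) = ac R w x + ac R w y :=
  map_add (acL w) x y

theorem ac_sub (w : R.Aut) (x y : Fin R.r → ℝ) : ac R w (x - y) = ac R w x - ac R w y :=
  map_sub (acL w) x y

theorem ac_smul (w : R.Aut) (t : ℝ) (x : Fin R.r → ℝ) : ac R w (t • x) = t • ac R w x :=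
  map_smul (acL w) t x

theorem ac_zero (w : R.Aut) : ac R w 0 = 0 := map_zero (acL w)

theorem cv_α (i : Fin R.r) : cv R (R.α i) = Pi.single i 1 := by
  ext j
  simp [cv, α_apply, Pi.single_apply]

theorem cv_add (γ δ : R.Q) : cv R (γ + δ) = cv R γ + cv R δ := by
  ext j
  simp [cv]

theorem cv_neg (γ : R.Q) : cv R (-γ) = -cv R γ := by
  ext j
  simp [cv]

theorem cv_sub (γ δ : R.Q) : cv R (γ - δ) = cv R γ - cv R δ := by
  ext j
  simp [cv]

theorem cv_smul (m : ℤ) (γ : R.Q) : cv R (m • γ) = (m : ℝ) • cv R γ := by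
  ext j
  simp [cv]

theorem sum_cv (x : Fin R.r → ℝ) : ∑ i, x i • cv R (R.α i) = x := by
  ext j
  simp [cv_α, Finset.sum_apply, Pi.single_apply]

theorem ac_α (w : R.Aut) (i : Fin R.r) : ac R w (cv R (R.α i)) = cv R (w (R.α i)) := by
  simp [ac, cv_α, Pi.single_apply]

theorem ac_cv (w : R.Aut) (γ : R.Q) : ac R w (cv R γ) = cv R (w γ) := by
  rw [map_eq w γ]
  ext j
  simp [ac, cv, Finset.sum_apply]

theorem ac_one (x : Fin R.r → ℝ) : ac R 1 x = x := sum_cv x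

theorem ac_mul (w w' : R.Aut) (x : Fin R.r → ℝ) : ac R (w * w') x = ac R w (ac R w' x) := by
  rw [← acL_ap w, ac, ac, map_sum]
  simp only [map_smul, acL_ap, ac_cv, mul_app]

theorem ac_inv (w : R.Aut) (x : Fin R.r → ℝ) : ac R w⁻¹ (ac R w x) = x := by
  rw [← ac_mul, inv_mul_cancel, ac_one]

theorem ac_inv' (w : R.Aut) (x : Fin R.r → ℝ) : ac R w (ac R w⁻¹ x) = x := by
  rw [← ac_mul, mul_inv_cancel, ac_one]

/-- the scalar product as a bilinear map -/
noncomputable def ipL (R : RS) : (Fin R.r → ℝ) →ₗ[ℝ] (Fin R.r → ℝ) →ₗ[ℝ] ℝ :=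
  LinearMap.mk₂ ℝ (ip R) (fun x y z => by simp [ip, add_mul, Finset.sum_add_distrib])
    (fun t x y => by simp [ip, Finset.mul_sum, mul_assoc])
    (fun x y z => by simp [ip, add_mul, mul_add, Finset.sum_add_distrib])
    (fun t x y => by simp [ip, Finset.mul_sum, mul_assoc, mul_left_comm])

theorem ipL_ap (x y : Fin R.r → ℝ) : ipL R x y = ip R x y := rfl

theorem ip_add (x y z : Fin R.r → ℝ) : ip R x (y + z) = ip R x y + ip R x z :=
  map_add (ipL R x) y z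

theorem ip_sub (x y z : Fin R.r → ℝ) : ip R x (y - z) = ip R x y - ip R x z :=
  map_sub (ipL R x) y z

theorem ip_neg (x y : Fin R.r → ℝ) : ip R x (-y) = -ip R x y := map_neg (ipL R x) y

theorem ip_smul (t : ℝ) (x y : Fin R.r → ℝ) : ip R x (t • y) = t * ip R x y :=
  map_smul (ipL R x) t y

theorem ip_zero (x : Fin R.r → ℝ) : ip R x 0 = 0 := map_zero (ipL R x)

theorem add_ip (x y z : Fin R.r → ℝ) : ip R (x + y) z = ip R x z + ip R y z :=
  map_add ((ipL R).flip z) x y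

theorem sub_ip (x y z : Fin R.r → ℝ) : ip R (x - y) z = ip R x z - ip R y z :=
  map_sub ((ipL R).flip z) x y

theorem smul_ip (t : ℝ) (x y : Fin R.r → ℝ) : ip R (t • x) y = t * ip R x y :=
  map_smul ((ipL R).flip y) t x

theorem zero_ip (x : Fin R.r → ℝ) : ip R 0 x = 0 := map_zero ((ipL R).flip x)

theorem ip_sum (x y : Fin R.r → ℝ) : ip R x y = ∑ j, y j * ip R x (cv R (R.α j)) := by
  conv_lhs => rw [← sum_cv y, ← ipL_ap, map_sum]
  simp only [map_smul, ipL_ap, smul_eq_mul]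

theorem ip_cont : Continuous fun p : (Fin R.r → ℝ) × (Fin R.r → ℝ) => ip R p.1 p.2 := by
  unfold ip
  fun_prop

theorem Dm.nonneg (h : Dm R x) (hγ : 0 ≤ γ) : 0 ≤ ip R x (cv R γ) := by
  rw [ip_sum]
  exact Finset.sum_nonneg fun j _ => mul_nonneg (Int.cast_nonneg_iff.2 (hγ j)) (h j)

section

variable (hR : R.Ok)
include hR

theorem ip_comm (x y : Fin R.r → ℝ) : ip R x y = ip R y x := by
  unfold ip
  rw [Finset.sum_comm]
  simp only [hR.B_comm (R.α _) (R.α _), mul_comm (x _)]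

theorem ip_cv (γ δ : R.Q) : ip R (cv R γ) (cv R δ) = R.B γ δ := by
  rw [hR.B_sum]
  simp only [hR.B_comm _ δ, hR.B_sum δ, ip, cv, Finset.mul_sum, hR.B_comm (R.α _) (R.α _)]
  push_cast
  simp only [mul_assoc]

theorem ip_ac (w w' : R.Aut) (x y : Fin R.r → ℝ) :
    ip R (ac R w x) (ac R w' y) = ∑ i, ∑ j, x i * y j * R.B (w (R.α i)) (w' (R.α j)) := by
  simp only [ac, ← ipL_ap, map_sum, map_smul, LinearMap.sum_apply, LinearMap.smul_apply,
    smul_eq_mul, Finset.mul_sum]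
  rw [Finset.sum_comm]
  simp only [ipL_ap, ip_cv hR, mul_assoc, mul_left_comm]

/-- the extended Weyl group acts by isometries -/
theorem ip_ext (h : Ext R w) (x y : Fin R.r → ℝ) : ip R (ac R w x) (ac R w y) = ip R x y := by
  simp only [ip_ac hR, ext_B hR h]
  rfl

theorem ip_adj (h : Ext R w) (x y : Fin R.r → ℝ) : ip R (ac R w x) y = ip R x (ac R w⁻¹ y) := by
  rw [← ip_ext hR h x, ac_inv']

theorem ip_eq [Fintype R.W] (x y : Fin R.r → ℝ) :
    ip R x y = ∑ w : R.W, ac R w.1 x ⬝ᵥ ac R w.1 y := by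
  have e : ∀ γ δ : R.Q, ((γ ⬝ᵥ δ : ℤ) : ℝ) = cv R γ ⬝ᵥ cv R δ := fun γ δ => by
    simp [dotProduct, cv]
  simp only [ip, hR.B_eq, ac, sum_dotProduct, smul_dotProduct, Int.cast_sum, e, Finset.mul_sum]
  simp only [dotProduct_sum, dotProduct_smul, smul_eq_mul, Finset.mul_sum, mul_assoc]
  exact (Finset.sum_congr rfl fun i _ => Finset.sum_comm).trans Finset.sum_comm

theorem sq_le_ip (x : Fin R.r → ℝ) : ‖x‖ ^ 2 ≤ ip R x x := by
  have := hR.finite_W
  have := Fintype.ofFinite R.W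
  have n : ∀ y : Fin R.r → ℝ, 0 ≤ y ⬝ᵥ y := fun y => Finset.sum_nonneg fun _ _ => mul_self_nonneg _
  have h1 := Finset.single_le_sum (f := fun w : R.W => ac R w.1 x ⬝ᵥ ac R w.1 x) (fun _ _ => n _)
    (Finset.mem_univ 1)
  rw [← ip_eq hR, OneMemClass.coe_one, ac_one] at h1
  refine le_trans ?_ h1
  rw [← Real.le_sqrt (norm_nonneg _) (n x), pi_norm_le_iff_of_nonneg (Real.sqrt_nonneg _)]
  intro i
  refine Real.abs_le_sqrt ?_
  rw [pow_two]
  exact Finset.single_le_sum (f := fun i => x i * x i) (fun _ _ => mul_self_nonneg _)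
    (Finset.mem_univ i)

theorem ip_nonneg (x : Fin R.r → ℝ) : 0 ≤ ip R x x := (sq_nonneg _).trans (sq_le_ip hR x)

theorem ip_pos (h : x ≠ 0) : 0 < ip R x x :=
  (pow_pos (norm_pos_iff.2 h) 2).trans_le (sq_le_ip hR x)

/-- the simple reflections -/
theorem ac_sE (i : Fin R.r) (x : Fin R.r → ℝ) : ac R (R.sE i) x =
    x - (2 * ip R x (cv R (R.α i)) / R.B (R.α i) (R.α i)) • cv R (R.α i) := by
  have b : (R.B (R.α i) (R.α i) : ℝ) ≠ 0 := Int.cast_ne_zero.2 (hR.B_α_pos i).ne'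
  have e : ∀ j, (R.pr (R.α j) i : ℝ) = 2 * R.B (R.α j) (R.α i) / R.B (R.α i) (R.α i) := fun j => by
    rw [eq_div_iff b]
    exact_mod_cast hR.pr_B (R.α j) i
  rw [ip_comm hR, ip_sum]
  simp only [ac, hR.sE_eq, cv_sub, cv_smul, smul_sub, Finset.sum_sub_distrib, sum_cv, e, smul_smul,
    ← Finset.sum_smul, ip_cv hR, Finset.mul_sum, Finset.sum_div, hR.B_comm (R.α i)]
  congr 3
  ext j
  ring

theorem ac_sE_fix (h : ip R x (cv R (R.α i)) = 0) : ac R (R.sE i) x = x := by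
  rw [ac_sE hR, h]
  simp

/-- a strictly dominant vector -/
theorem exists_reg : ∃ x, ∀ i, ip R x (cv R (R.α i)) = 1 := by
  let f : (Fin R.r → ℝ) →ₗ[ℝ] (Fin R.r → ℝ) := LinearMap.pi fun i => (ipL R).flip (cv R (R.α i))
  have inj : Function.Injective f := (injective_iff_map_eq_zero f).2 fun x e => by
    by_contra c
    refine (ip_pos hR c).ne' ?_
    rw [ip_sum]
    exact Finset.sum_eq_zero fun j _ => mul_eq_zero_of_right _ (congrFun e j)
  obtain ⟨x, e⟩ := LinearMap.injective_iff_surjective.1 inj 1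
  exact ⟨x, congrFun e⟩

end

end Vale.Agent.P011UHN
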