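import Vale.Agent.P011UHN.Kit
import Mathlib.Analysis.Normed.Module.FiniteDimension
import Mathlib.Topology.Baire.Lemmas
import Mathlib.Topology.Baire.CompleteMetrizable

/-!
HN: elements in good position.
-/

set_option autoImplicit false
set_option linter.all false

namespace Vale.Agent.P011UHN

open Set Filter Topology Vale.Agent.P183CH Vale.Agent.P011U Vale.Agent.P011UHB
open Vale.Agent.P183CH.RS

variable {R : RS} {w : R.Aut}

/-- Descent in a closed set which is stable under the steps `x ↦ x - t N x`. -/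
theorem desc (hR : R.Ok) (N : (Fin R.r → ℝ) →ₗ[ℝ] (Fin R.r → ℝ))
    (hN : ∀ x, N x ≠ 0 → 0 < ip R x (N x)) {Z : Set (Fin R.r → ℝ)} (hZ : IsClosed Z)
    (st : ∀ x ∈ Z, ∀ᶠ t : ℝ in 𝓝[>] 0, x - t • N x ∈ Z) {x₀ : Fin R.r → ℝ} (h0 : x₀ ∈ Z) :
    ∃ x ∈ Z, N x = 0 ∧ ∃ η, x₀ = x + N η := by
  have c : Continuous fun x => ip R x x := ip_cont.comp (continuous_id.prodMk continuous_id)
  let S := (Z ∩ {x | x₀ - x ∈ LinearMap.range N}) ∩ {x | ip R x x ≤ ip R x₀ x₀}
  have cS : IsCompact S := by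
    refine Metric.isCompact_of_isClosed_isBounded ((hZ.inter
      ((LinearMap.range N).closed_of_finiteDimensional.preimage (by fun_prop))).inter
      (isClosed_le c continuous_const)) (isBounded_iff_forall_norm_le.2
        ⟨√(ip R x₀ x₀), fun x m => Real.le_sqrt_of_sq_le ((sq_le_ip hR x).trans m.2)⟩)
  obtain ⟨x, ⟨⟨m1, η, m2⟩, m3⟩, hx⟩ := cS.exists_isMinOn
    ⟨x₀, ⟨h0, 0, by simp⟩, le_refl (ip R x₀ x₀)⟩ c.continuousOn
  refine ⟨x, m1, by_contra fun n => ?_, η, by rw [m2, add_sub_cancel]⟩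
  have p := hN x n
  have ev : ∀ᶠ t : ℝ in 𝓝[>] 0, t * ip R (N x) (N x) < 2 * ip R x (N x) :=
    mem_nhdsWithin_of_mem_nhds (Tendsto.eventually_lt_const (v := 0) (by linarith)
      (Continuous.tendsto' (by fun_prop) _ _ (by simp)))
  obtain ⟨t, ⟨a1, a2⟩, t0⟩ := (((st x m1).and ev).and self_mem_nhdsWithin).exists
  have t0 : 0 < t := t0
  have lt : ip R (x - t • N x) (x - t • N x) < ip R x x := by
    simp only [sub_ip, ip_sub, smul_ip, ip_smul, ip_comm hR (N x) x]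
    nlinarith
  exact lt.not_ge (hx ⟨⟨a1, η + t • x, by rw [map_add, map_smul, m2]; abel⟩, lt.le.trans m3⟩)

/-- The greatest value of the Rayleigh quotient. -/
theorem exists_top (hR : R.Ok) (w : R.Aut) :
    ∃ c y, y ≠ 0 ∧ ip R y (ac R w y) = c * ip R y y ∧ ∀ x, ip R x (ac R w x) ≤ c * ip R x x := by
  have : Nonempty (Fin R.r) := ⟨⟨0, hR.pos⟩⟩
  have c1 : Continuous fun x => ip R x x := ip_cont.comp (continuous_id.prodMk continuous_id)
  have c2 : Continuous fun x => ip R x (ac R w x) :=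
    ip_cont.comp (continuous_id.prodMk (acL w).continuous_of_finiteDimensional)
  have ne : ∀ x ∈ Metric.sphere (0 : Fin R.r → ℝ) 1, x ≠ 0 := fun x m e => by simp [e] at m
  obtain ⟨y, m, hy⟩ := (isCompact_sphere (0 : Fin R.r → ℝ) 1).exists_isMaxOn
    (NormedSpace.sphere_nonempty.2 zero_le_one) (f := fun x => ip R x (ac R w x) / ip R x x)
    (c2.continuousOn.div c1.continuousOn fun x m => (ip_pos hR (ne x m)).ne')
  refine ⟨_, y, ne y m, (div_mul_cancel₀ _ (ip_pos hR (ne y m)).ne').symm, fun x => ?_⟩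
  by_cases e : x = 0
  · simp [e, zero_ip]
  have n := norm_pos_iff.2 e
  have := hy (a := ‖x‖⁻¹ • x) (by simp [norm_smul, n.ne'])
  simp only [mem_setOf_eq, ac_smul, smul_ip, ip_smul, mul_div_mul_left _ _ (inv_pos.2 n).ne'] at this
  exact (div_le_iff₀ (ip_pos hR e)).1 this

/-- the operator `2 c - w - w⁻¹` -/
noncomputable def Nc (w : R.Aut) (c : ℝ) : (Fin R.r → ℝ) →ₗ[ℝ] (Fin R.r → ℝ) :=
  (2 * c) • LinearMap.id - (acL w + acL w⁻¹)

theorem Nc_ap (w : R.Aut) (c : ℝ) (x : Fin R.r → ℝ) :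
    Nc w c x = (2 * c) • x - (ac R w x + ac R w⁻¹ x) := rfl

theorem Nc_zero {c : ℝ} {x : Fin R.r → ℝ} : Nc w c x = 0 ↔ ac R w x + ac R w⁻¹ x = (2 * c) • x := by
  rw [Nc_ap, sub_eq_zero, eq_comm]

theorem Nc_symm (hR : R.Ok) (h : Ext R w) (c : ℝ) (x y : Fin R.r → ℝ) :
    ip R (Nc w c x) y = ip R x (Nc w c y) := by
  simp only [Nc_ap, sub_ip, ip_sub, add_ip, ip_add, smul_ip, ip_smul, ip_adj hR h,
    ip_adj hR (ext_inv hR h), inv_inv]
  ring

theorem Nc_quad (hR : R.Ok) (h : Ext R w) (c : ℝ) (x : Fin R.r → ℝ) :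
    ip R x (Nc w c x) = 2 * (c * ip R x x - ip R x (ac R w x)) := by
  simp only [Nc_ap, ip_sub, ip_add, ip_smul, ← ip_adj hR h, ip_comm hR (ac R w x)]
  ring

theorem Nc_pos (hR : R.Ok) (h : Ext R w) {c : ℝ} (hc : ∀ x, ip R x (ac R w x) ≤ c * ip R x x)
    (x : Fin R.r → ℝ) (n : Nc w c x ≠ 0) : 0 < ip R x (Nc w c x) := by
  have q : ∀ y, 0 ≤ ip R y (Nc w c y) := fun y => by rw [Nc_quad hR h]; linarith [hc y]
  refine (q x).lt_of_ne fun e => ?_
  have p := ip_pos hR n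
  obtain ⟨b, hb⟩ : ∃ b, b = ip R (Nc w c x) (Nc w c (Nc w c x)) := ⟨_, rfl⟩
  have b0 : 0 ≤ b := hb ▸ q _
  have := q (x - (ip R (Nc w c x) (Nc w c x) / (b + 1)) • Nc w c x)
  simp only [map_sub, map_smul, sub_ip, ip_sub, smul_ip, ip_smul, ← e, ← hb,
    ← Nc_symm hR h c x (Nc w c x)] at this
  generalize ip R (Nc w c x) (Nc w c x) = a at p this
  obtain ⟨t, ht⟩ : ∃ t, t = a / (b + 1) := ⟨_, rfl⟩
  have t0 : 0 < t := by rw [ht]; positivity
  have e2 : t * (b + 1) = a := by rw [ht]; field_simp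
  rw [← ht, ← e2] at this
  nlinarith [mul_pos t0 t0]

/-- A strictly dominant vector outside of finitely many hyperplanes. -/
theorem exists_gen (hR : R.Ok) {ι : Type} (s : Finset ι) (a : ι → Fin R.r → ℝ) :
    ∃ x, (∀ i, 0 < ip R x (cv R (R.α i))) ∧ ∀ k ∈ s, a k ≠ 0 → ip R x (a k) ≠ 0 := by
  have c : ∀ y, Continuous fun x => ip R x y := fun y =>
    ip_cont.comp (continuous_id.prodMk continuous_const)
  have o : IsOpen {x | ∀ i, 0 < ip R x (cv R (R.α i))} := by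
    rw [setOf_forall]
    exact isOpen_iInter_of_finite fun i => isOpen_lt continuous_const (c _)
  have d : Dense (⋂ k ∈ {k ∈ (s : Set ι) | a k ≠ 0}, {x | ip R x (a k) ≠ 0}) := by
    refine dense_biInter_of_isOpen (fun k _ => isOpen_ne_fun (c _) continuous_const)
      (s.finite_toSet.subset fun _ m => m.1).countable fun k m => ?_
    refine (interior_eq_empty_iff_dense_compl
      (s := (LinearMap.ker ((ipL R).flip (a k)) : Set (Fin R.r → ℝ)))).1 (not_nonempty_iff_eq_empty.1 fun n => (ip_pos hR m.2).ne' ?_)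
    exact LinearMap.mem_ker.1 ((Submodule.eq_top_of_nonempty_interior' _ n).ge (mem_univ (a k)))
  obtain ⟨ρ, hρ⟩ := exists_reg hR
  obtain ⟨x, m1, m2⟩ := d.inter_open_nonempty _ o ⟨ρ, fun i => by rw [hρ]; exact one_pos⟩
  exact ⟨x, m1, fun k a b => mem_iInter₂.1 m2 k ⟨a, b⟩⟩

/-- The step stays in the union of the chambers which can be reached. -/
theorem step (hR : R.Ok) {P : Set R.Aut} (hP : ∀ w ∈ P, Ext R w) (sh : Sh R P) (c : ℝ)
    {x : Fin R.r → ℝ} (hx : ∃ u ∈ R.W, u * w * u⁻¹ ∈ P ∧ Dm R (ac R u x)) :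
    ∀ᶠ t : ℝ in 𝓝[>] 0, ∃ u ∈ R.W, u * w * u⁻¹ ∈ P ∧ Dm R (ac R u (x - t • Nc w c x)) := by
  have := hR.finite_W
  obtain ⟨ρ, hρ⟩ := exists_reg hR
  obtain ⟨u, ⟨u1, u2, u3⟩, hu⟩ := exists_min_image
    {u | u ∈ R.W ∧ u * w * u⁻¹ ∈ P ∧ Dm R (ac R u x)} (fun u => ip R ρ (ac R u (Nc w c x)))
    ((toFinite (R.W : Set R.Aut)).subset fun _ m => m.1) hx
  have key : ∀ j, ip R (ac R u x) (cv R (R.α j)) = 0 →
      ip R (ac R u (Nc w c x)) (cv R (R.α j)) ≤ 0 := by
    refine fun j e => not_lt.1 fun l => ?_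
    have h := hP _ u2
    have e1 : ac R u (Nc w c x) = Nc (u * w * u⁻¹) c (ac R u x) := by
      simp only [Nc_ap, ac_sub, ac_add, ac_smul, ← ac_mul]
      congr 3 <;> group
    have s : (u * w * u⁻¹) (R.α j) ≤ 0 ∨ (u * w * u⁻¹)⁻¹ (R.α j) ≤ 0 := by
      by_contra n
      rw [not_or] at n
      have a1 := Dm.nonneg u3 ((ext_sign hR h (hR.simple j)).resolve_right n.1)
      have a2 := Dm.nonneg u3 ((ext_sign hR (ext_inv hR h) (hR.simple j)).resolve_right n.2)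
      rw [e1, Nc_symm hR h, Nc_ap, ip_sub, ip_add, ip_smul, e, ac_cv, ac_cv] at l
      linarith
    have m := sh _ u2 j (shift_le hR h s)
    have := hu (R.sE j * u) ⟨mul_mem (sE_mem_W j) u1, by
      rwa [mul_inv_rev, hR.sE_inv, show R.sE j * u * w * (u⁻¹ * R.sE j) =
        R.sE j * (u * w * u⁻¹) * R.sE j by group], by rwa [ac_mul, ac_sE_fix hR e]⟩
    have b : (0 : ℝ) < R.B (R.α j) (R.α j) := Int.cast_pos.2 (hR.B_α_pos j)
    simp only [ac_mul, ac_sE hR, ip_sub, ip_smul, hρ] at this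
    have : 0 < 2 * ip R (ac R u (Nc w c x)) (cv R (R.α j)) / R.B (R.α j) (R.α j) := by positivity
    linarith
  have : ∀ᶠ t : ℝ in 𝓝[>] 0, ∀ j, 0 ≤ ip R (ac R u (x - t • Nc w c x)) (cv R (R.α j)) := by
    refine eventually_all.2 fun j => ?_
    simp only [ac_sub, ac_smul, sub_ip, smul_ip]
    rcases (u3 j).eq_or_lt with e | e
    · filter_upwards [self_mem_nhdsWithin] with t t0
      have := mul_nonneg (le_of_lt t0) (neg_nonneg.2 (key j e.symm))
      linarith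
    · exact mem_nhdsWithin_of_mem_nhds ((Tendsto.eventually_const_lt e
        (Continuous.tendsto' (by fun_prop) _ _ (by simp))).mono fun _ => le_of_lt)
  exact this.mono fun t a => ⟨u, u1, u2, a⟩

/-- **HN.** -/
theorem hn : HN := fun R hR P ⟨w, hw⟩ hP sh => by
  classical
  have := hR.finite_W
  have h := hP w hw
  obtain ⟨c, y, y0, hy, hc⟩ := exists_top hR w
  have pos := Nc_pos hR h hc
  have Ny : Nc w c y = 0 := by_contra fun n => (pos y n).ne' (by rw [Nc_quad hR h, hy]; ring)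
  choose p _ p1 η p2 using fun v => desc hR (Nc w c) pos isClosed_univ (fun _ _ => by simp)
    (mem_univ v)
  have orth : ∀ a b, Nc w c a = 0 → ip R a b = ip R a (p b) := fun a b e => by
    conv_lhs => rw [p2 b, ip_add, ← Nc_symm hR h, e, zero_ip, add_zero]
  obtain ⟨x₀, d, g⟩ := exists_gen hR (insert none (R.Φ.image some))
    fun o => o.elim y fun γ => p (cv R γ)
  have cl : IsClosed {x | ∃ u ∈ R.W, u * w * u⁻¹ ∈ P ∧ Dm R (ac R u x)} := by
    have e : {x | ∃ u ∈ R.W, u * w * u⁻¹ ∈ P ∧ Dm R (ac R u x)} =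
        ⋃ u ∈ {u | u ∈ R.W ∧ u * w * u⁻¹ ∈ P}, ⋂ j, {x | 0 ≤ ip R (ac R u x) (cv R (R.α j))} := by
      ext x
      simp [Dm, and_assoc]
    rw [e]
    exact ((toFinite (R.W : Set R.Aut)).subset fun _ m => m.1).isClosed_biUnion fun u _ =>
      isClosed_iInter fun j => isClosed_le continuous_const (ip_cont.comp
        ((acL u).continuous_of_finiteDimensional.prodMk continuous_const))
  obtain ⟨x, ⟨u, u1, u2, u3⟩, x1, ζ, x2⟩ := desc hR (Nc w c) pos cl (fun x m => step hR hP sh c m)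
    (x₀ := x₀) ⟨1, one_mem _, by simpa using hw, fun i => by rw [ac_one]; exact (d i).le⟩
  have o2 : ∀ a, Nc w c a = 0 → ip R x₀ a = ip R x a := fun a e => by
    rw [x2, add_ip, Nc_symm hR h, e, ip_zero, add_zero]
  have hu := ext_W u1
  have e1 : ∀ v, Nc (u * w * u⁻¹) c (ac R u v) = ac R u (Nc w c v) := fun v => by
    simp only [Nc_ap, ac_sub, ac_add, ac_smul, ← ac_mul]
    congr 3 <;> group
  refine ⟨_, u2, ac R u x, c, fun e => ?_, u3, Nc_zero.1 (by rw [e1, x1, ac_zero]), fun v => ?_,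
    fun γ m e v hv => ?_⟩
  · refine g none (by simp) y0 ?_
    rw [Option.elim, o2 y Ny, ← ac_inv u x, e, ac_zero, zero_ip]
  · have := hc (ac R u⁻¹ v)
    rwa [ip_ext hR (ext_inv hR hu), ip_adj hR (ext_inv hR hu), inv_inv, ← ac_mul, ← ac_mul] at this
  · have m' := ext_mem hR (ext_inv hR hu) m
    rw [ip_adj hR hu, ac_cv, orth _ _ x1, ← o2 _ (p1 _)] at e
    have z : p (cv R (u⁻¹ γ)) = 0 := by_contra fun n => g (some _) (by simpa using m') n e
    have v1 : Nc w c (ac R u⁻¹ v) = 0 := by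
      rw [← ac_inv u (Nc w c _), ← e1, ac_inv', Nc_zero.2 hv, ac_zero]
    rw [← ac_inv' u v, ip_adj hR hu, ac_cv, orth _ _ v1, z, ip_zero]

end Vale.Agent.P011UHN
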